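import Vale.Agent.P235.MathlibUsed

namespace Vale.Agent.P235T3

open MeasureTheory

/-- Shortest-path distance of `G` for the edge lengths `ℓ`: infimum of the lengths of walks. -/
noncomputable def pathDist {V : Type} (G : SimpleGraph V) (ℓ : Sym2 V → ℝ) (x y : V) : ℝ :=
  ⨅ w : G.Walk x y, (w.edges.map ℓ).sum

/-- `(X, d)` embeds into some `L₁(Ω, μ; ℝ)` with distortion at most `C`. -/
def EmbedsL1 {X : Type} (d : X → X → ℝ) (C : ℝ) : Prop :=
  ∃ (Ω : Type) (_ : MeasurableSpace Ω) (μ : Measure Ω) (f : X → Lp ℝ 1 μ),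
    ∀ x y, d x y ≤ ‖f x - f y‖ ∧ ‖f x - f y‖ ≤ C * d x y

/-- `c₁(G) ≤ C`: for all positive edge lengths the path metric of `G` embeds into `L₁`
with distortion at most `C`. -/
def DistortionLE {V : Type} (G : SimpleGraph V) (C : ℝ) : Prop :=
  ∀ ℓ : Sym2 V → ℝ, (∀ e ∈ G.edgeSet, 0 < ℓ e) → EmbedsL1 (pathDist G ℓ) C

/-- `G` has treewidth at most `k`: there is a finite tree `T` with bags `B t ⊆ V`, `|B t| ≤ k + 1`,
such that every vertex lies in some bag, every edge lies in some bag, and for every vertex `v` the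
nodes whose bags contain `v` form a (connected) subtree. -/
def TreewidthLE {V : Type} (G : SimpleGraph V) (k : ℕ) : Prop :=
  ∃ (ι : Type) (_ : Finite ι) (T : SimpleGraph ι) (B : ι → Finset V),
    T.IsTree ∧
    (∀ v, ∃ t, v ∈ B t) ∧
    (∀ u v, G.Adj u v → ∃ t, u ∈ B t ∧ v ∈ B t) ∧
    (∀ v, (T.induce {t | v ∈ B t}).Preconnected) ∧
    (∀ t, (B t).card ≤ k + 1)

end Vale.Agent.P235T3
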